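import Vale.Agent.P275RH.MkD

/-!
P275 (helper19): the punctured curve is a branched covering of the plane.
-/

set_option linter.all false

open scoped Manifold ContDiff Topology
open Set Filter

noncomputable section

namespace Vale.Agent.P275BV

open Vale.Agent.P275ST Vale.Agent.P275RH

variable {C : Type} [TopologicalSpace C] [ChartedSpace ℂ C] {x y p : C} {f : C → ℂ}

theorem map_ne (x : C) : map (chartAt ℂ x) (𝓝[≠] x) = 𝓝[≠] (ctr x) :=
  OpenPartialHomeomorph.IsImage.map_nhdsWithin_eq (e := chartAt ℂ x) (s := {x}ᶜ) (t := {ctr x}ᶜ)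
    (fun y hy => not_congr ⟨fun h => (chartAt ℂ x).injOn hy (mem_chart_source ℂ x) h,
      fun h => congrArg (chartAt ℂ x) h⟩) (mem_chart_source ℂ x)

theorem ev_ne {P : ℂ → Prop} (h : ∀ᶠ z in 𝓝[≠] (ctr x), P z) :
    ∀ᶠ y in 𝓝[≠] x, y ∈ (chartAt ℂ x).source ∧ P (chartAt ℂ x y) :=
  Eventually.and (mem_nhdsWithin_of_mem_nhds (chart_source_mem_nhds ℂ x))
    (eventually_map.1 ((map_ne x).symm ▸ h))

theorem neBot (x : C) : NeBot (𝓝[≠] x) :=
  (map_neBot_iff (chartAt ℂ x)).1 (by rw [map_ne]; infer_instance)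

theorem loc_chart {V : Type} {f : C → V} (hy : y ∈ (chartAt ℂ x).source) :
    loc x f (chartAt ℂ x y) = f y := congrArg f ((chartAt ℂ x).left_inv hy)

theorem cont_of (h : ContinuousAt (loc x f) (ctr x)) : ContinuousAt f x :=
  (h.comp_of_eq ((chartAt ℂ x).continuousAt (mem_chart_source ℂ x)) rfl).congr
    (eventually_of_mem (chart_source_mem_nhds ℂ x) fun _ hy => loc_chart hy)

omit [ChartedSpace ℂ C] in
theorem fin_of [CompactSpace C] {S : Set C} (h : ∀ x, ∀ᶠ y in 𝓝[≠] x, y ∉ S) : S.Finite := by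
  simpa using isCompact_univ.induction_on (p := fun s => (s ∩ S).Finite) (by simp)
    (fun s t hst ht => ht.subset (inter_subset_inter_left _ hst))
    (fun s t hs ht => by rw [union_inter_distrib_right]; exact hs.union ht)
    fun x _ => ⟨{y | y ∈ ({x}ᶜ : Set C) → y ∉ S},
      mem_nhdsWithin_of_mem_nhds (eventually_nhdsWithin_iff.1 (h x)),
      (finite_singleton x).subset fun y hy => by_contra fun k => hy.1 k hy.2⟩

/-- `f` has its only pole at `p` -/
structure Pl (p : C) (f : C → ℂ) : Prop where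
  an : ∀ x ≠ p, AnalyticAt ℂ (loc x f) (ctr x)
  mer : MerAt p f
  neg : ord p f < 0

theorem Pl.merAt (h : Pl p f) (x : C) : MeromorphicAt (loc x f) (ctr x) := by
  by_cases hx : x = p
  exacts [hx ▸ h.mer, (h.an x hx).meromorphicAt]

theorem Pl.mul (h : Pl p f) {u : ℂ} (hu : u ≠ 0) : Pl p fun y => u * f y :=
  ⟨fun x hx => analyticAt_const.mul (h.an x hx), (MeromorphicAt.const u _).mul h.mer,
    (meromorphicOrderAt_mul_of_ne_zero (g := fun _ => u) analyticAt_const hu).trans_lt h.neg⟩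

theorem Pl.tend (h : Pl p f) : Tendsto f (𝓝[≠] p) (Bornology.cobounded ℂ) :=
  ((tendsto_cobounded_of_meromorphicOrderAt_neg h.neg).comp (map_ne p).le).congr'
    ((ev_ne (P := fun _ => True) (.of_forall fun _ => trivial)).mono fun _ hy => loc_chart hy.1)

theorem Pl.cont (h : Pl p f) : Continuous fun y : Pc p => f y := continuous_iff_continuousAt.2
  fun y => (cont_of (h.an y y.2).continuousAt).comp continuous_subtype_val.continuousAt

variable [T2Space C] [CompactSpace C] [ConnectedSpace C]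

theorem Pl.ne (h : Pl p f) (w : ℂ) (x : C) : ∀ᶠ y in 𝓝[≠] x, f y ≠ w := by
  have h1 : ∀ x, (∀ᶠ y in 𝓝[≠] x, f y ≠ w) ∨ ∀ᶠ y in 𝓝[≠] x, f y = w := fun x => by
    rcases ((h.merAt x).sub (.const w _)).eventually_eq_zero_or_eventually_ne_zero with k | k
    · right
      filter_upwards [ev_ne k] with y ⟨a, b⟩ using (loc_chart a).symm.trans (sub_eq_zero.1 b)
    · left
      filter_upwards [ev_ne k] with y ⟨a, b⟩ e using b (sub_eq_zero.2 ((loc_chart a).trans e))
  refine isPreconnected_univ.subset_left_of_subset_union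
    (isOpen_setOfPred_eventually_nhdsWithin (p := fun y => f y ≠ w))
    (isOpen_setOfPred_eventually_nhdsWithin (p := fun y => f y = w))
    (disjoint_left.2 fun x a b => ?_) (fun x _ => h1 x) ⟨p, mem_univ p, ?_⟩ (mem_univ x)
  · have := neBot x
    obtain ⟨_, k⟩ := (Eventually.and (f := 𝓝[≠] x) (p := fun y => f y ≠ w) (q := fun y => f y = w)
      a b).exists
    exact k.1 k.2
  · exact h.tend.eventually (Bornology.isBounded_singleton (x := w))

theorem Pl.fin (h : Pl p f) (w : ℂ) : ((fun y : Pc p => f y) ⁻¹' {w}).Finite :=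
  ((fin_of (S := f ⁻¹' {w}) (h.ne w)).preimage (f := Subtype.val) Subtype.val_injective.injOn :)

theorem Pl.cl (h : Pl p f) : IsClosedMap fun y : Pc p => f y := by
  refine (isProperMap_iff_tendsto_cocompact.2 ⟨h.cont, ?_⟩).isClosedMap
  rw [← Metric.cobounded_eq_cocompact]
  refine h.tend.comp (tendsto_nhdsWithin_iff.2 ⟨fun U hU => ?_, .of_forall fun y => y.2⟩)
  obtain ⟨V, h1, h2, h3⟩ := mem_nhds_iff.1 hU
  have h4 : IsCompact ((Subtype.val : Pc p → C) ⁻¹' Vᶜ) :=
    Topology.IsInducing.subtypeVal.isCompact_preimage' h2.isClosed_compl.isCompact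
      fun y hy => ⟨⟨y, fun e => hy ((show y = p from e) ▸ h3)⟩, rfl⟩
  exact mem_map.2 (mem_of_superset h4.compl_mem_cocompact fun y hy => h1 (by_contra fun k => hy k))

/-- the points where `f` is a local homeomorphism -/
def Gd (f : C → ℂ) : Set C :=
  {y | ∃ e : OpenPartialHomeomorph C ℂ, y ∈ e.source ∧ EqOn f e e.source}

theorem ift {g : ℂ → ℂ} {z : ℂ} (h1 : AnalyticAt ℂ g z) (h2 : deriv g z ≠ 0) :
    ∃ R : OpenPartialHomeomorph ℂ ℂ, z ∈ R.source ∧ ⇑R = g :=
  ⟨(h1.hasStrictDerivAt.hasStrictFDerivAt_equiv h2).toOpenPartialHomeomorph _,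
    HasStrictFDerivAt.mem_toOpenPartialHomeomorph_source _, rfl⟩

theorem Pl.gd (h : Pl p f) : (Gd f)ᶜ.Finite := fin_of fun x => by
  rcases (h.merAt x).deriv.eventually_eq_zero_or_eventually_ne_zero with k | k
  · have := neBot x
    obtain ⟨y, h1, h2, h3⟩ := (ev_ne ((eventually_eventually_nhdsWithin.2
      (k.and (h.merAt x).eventually_analyticAt)).and self_mem_nhdsWithin)).exists
    rw [isOpen_compl_singleton.nhdsWithin_eq h3] at h2
    obtain ⟨ε, h4, h5⟩ := Metric.eventually_nhds_iff_ball.1 h2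
    have h6 : ∀ᶠ y' in 𝓝 y, f y' = f y := by
      filter_upwards [(chartAt ℂ x).continuousAt h1 (Metric.ball_mem_nhds _ h4),
        (chartAt ℂ x).open_source.mem_nhds h1] with y' a b
      rw [← loc_chart (f := f) b, ← loc_chart (f := f) h1]
      exact Metric.isOpen_ball.is_const_of_deriv_eq_zero (convex_ball _ _).isPreconnected
        (fun z hz => (h5 z hz).2.differentiableAt.differentiableWithinAt) (fun z hz => (h5 z hz).1)
        a (Metric.mem_ball_self h4)
    have := neBot y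
    exact (((h.ne (f y) y).and (h6.filter_mono nhdsWithin_le_nhds)).exists).elim
      fun _ k => (k.1 k.2).elim
  · filter_upwards [ev_ne (k.and (h.merAt x).eventually_analyticAt)] with y ⟨h1, h2, h3⟩ h4
    obtain ⟨R, a, b⟩ := ift h3 h2
    exact h4 ⟨(chartAt ℂ x).trans R, ⟨h1, a⟩, fun y' hy =>
      (loc_chart hy.1).symm.trans (congrFun b.symm _)⟩

theorem Pl.chart (h : Pl p f) : ∃ (N : ℕ) (ζ : OpenPartialHomeomorph C ℂ), 0 < N ∧ HolAt p ζ ∧
    ∀ y ≠ p, y ∈ ζ.source → f y = (ζ y)⁻¹ ^ N := by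
  obtain ⟨n, hn⟩ := WithTop.ne_top_iff_exists.1 h.neg.ne_top
  have h0 : n < 0 := by
    have := h.neg
    rw [← hn] at this
    exact_mod_cast this
  obtain ⟨N, rfl⟩ : ∃ N : ℕ, n = -N := ⟨(-n).toNat, by omega⟩
  have hN : 0 < N := by omega
  obtain ⟨g, h1, h2, h3⟩ := (meromorphicOrderAt_eq_int_iff h.mer).1 hn.symm
  set c := ctr p with hc
  let r : ℂ → ℂ := fun z => Complex.exp (-(Complex.log (g z / g c) + Complex.log (g c)) / N)
  have h4 : AnalyticAt ℂ r c := by
    refine AnalyticAt.cexp' (AnalyticAt.div_const (AnalyticAt.neg (AnalyticAt.add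
      (h1.div_const.clog ?_) analyticAt_const)))
    simp [h2]
  have h5 : ∀ z, g z ≠ 0 → r z ^ N = (g z)⁻¹ := fun z hz => by
    rw [← Complex.exp_nat_mul, mul_div_cancel₀ _ (Nat.cast_ne_zero.2 hN.ne'), Complex.exp_neg,
      Complex.exp_add, Complex.exp_log (div_ne_zero hz h2), Complex.exp_log h2, div_mul_cancel₀ _ h2]
  have h6 : AnalyticAt ℂ (fun z => (z - c) * r z) c := (analyticAt_id.sub analyticAt_const).mul h4
  have h7 : deriv (fun z => (z - c) * r z) c ≠ 0 := by
    rw [(((hasDerivAt_id' c).sub_const c).fun_mul h4.differentiableAt.hasDerivAt).deriv]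
    simp [r]
  obtain ⟨R, a, b⟩ := ift h6 h7
  obtain ⟨W, w1, w2, w3⟩ := eventually_nhds_iff.1 ((eventually_nhdsWithin_iff.1 h3).and
    (h1.continuousAt.eventually_ne h2))
  have h8 : loc p ((chartAt ℂ p).trans (R.restrOpen W w2)) =ᶠ[𝓝 c] fun z => (z - c) * r z :=
    eventually_of_mem (chart_target_mem_nhds ℂ p) fun z hz =>
      (congrArg R ((chartAt ℂ p).right_inv hz)).trans (congrFun b z)
  refine ⟨N, (chartAt ℂ p).trans (R.restrOpen W w2), hN,
    ⟨⟨mem_chart_source ℂ p, a, w3⟩, (congrFun b c).trans (by simp), h6.congr h8.symm,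
      h8.deriv_eq ▸ h7⟩, fun y hy ⟨k1, _, k2⟩ => ?_⟩
  obtain ⟨k3, k4⟩ := w1 (chartAt ℂ p y) k2
  have k5 : ((chartAt ℂ p).trans (R.restrOpen W w2)) y =
      (chartAt ℂ p y - c) * r (chartAt ℂ p y) := congrFun b _
  rw [k5, ← loc_chart (f := f) k1, k3 fun e => hy ((chartAt ℂ p).injOn k1 (mem_chart_source ℂ p) e),
    inv_pow, mul_pow, h5 _ k4, mul_inv, inv_inv, zpow_neg, zpow_natCast, smul_eq_mul]

theorem Pl.far (h : Pl p f) {U : Set C} (hU : IsOpen U) (hp : p ∈ U) :
    ∃ ρ : ℝ, ∀ y, ρ < ‖f y‖ → y ∈ U := by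
  obtain ⟨ρ, hρ⟩ := hU.isClosed_compl.isCompact.exists_bound_of_continuousOn (f := f)
    fun y hy => (cont_of (h.an y fun e => hy (e ▸ hp)).continuousAt).continuousWithinAt
  exact ⟨ρ, fun y hy => by_contra fun k => hy.not_ge (hρ y k)⟩

/-- a finite set has distinct imaginary parts after a rotation -/
theorem rot (T : Finset ℂ) : ∃ u : ℂ, u ≠ 0 ∧ InjOn (fun z => (u * z).im) T := by
  classical
  obtain ⟨t, ht⟩ := Infinite.exists_notMem_finset
    ((T ×ˢ T).image fun q : ℂ × ℂ => -(q.1 - q.2).im / (q.1 - q.2).re)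
  refine ⟨⟨1, t⟩, fun e => one_ne_zero (congrArg Complex.re e), fun z hz z' hz' e => ?_⟩
  have e1 : (z - z').im + t * (z - z').re = 0 := by
    simp only [Complex.mul_im, Complex.sub_im, Complex.sub_re] at e ⊢
    linarith
  by_cases k : (z - z').re = 0
  · exact sub_eq_zero.1 (Complex.ext k (by simpa [k] using e1))
  · exact (ht (Finset.mem_image.2 ⟨(z, z'), Finset.mem_product.2 ⟨hz, hz'⟩, by
      rw [div_eq_iff k]; linarith⟩)).elim

theorem sorted (T : Finset ℂ) {u : ℂ} (h : InjOn (fun z => (u * z).im) T) :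
    ∃ b : Fin T.card → ℂ, (StrictMono fun i => (b i).im) ∧ ∀ z ∈ T, u * z ∈ range b := by
  classical
  have h1 := Finset.card_image_of_injOn h
  choose z h2 h3 using fun i => Finset.mem_image.1 (Finset.orderEmbOfFin_mem _ h1 i)
  refine ⟨fun i => u * z i, by simpa only [h3] using (Finset.orderEmbOfFin _ h1).strictMono,
    fun w hw => ?_⟩
  obtain ⟨i, hi⟩ := (Finset.range_orderEmbOfFin _ h1).ge
    (Finset.mem_coe.2 (Finset.mem_image_of_mem _ hw))
  exact ⟨i, congrArg (u * ·) (h (h2 i) hw ((h3 i).trans hi))⟩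

theorem Pl.br (h : Pl p f) : Nonempty (Br p) := by
  classical
  set T : Finset ℂ := (h.gd.image f).toFinset ∪ {0, 1} with hT
  obtain ⟨u, hu, h1⟩ := rot T
  obtain ⟨b, h2, h3⟩ := sorted T h1
  have h4 := h.mul hu
  obtain ⟨N, ζ, a1, a2, a3⟩ := h4.chart
  obtain ⟨ρ, a4⟩ := h4.far ζ.open_source a2.mem
  refine ⟨⟨fun y => u * f y, T.card, b, N, ζ, ρ, h4.cont, h4.cl, h4.fin, ?_, h2, ?_, a1, a2,
    fun y => a3 y y.2, fun y => a4 y⟩⟩
  · exact (Finset.card_pair zero_ne_one).ge.trans (Finset.card_le_card Finset.subset_union_right)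
  · refine h4.cl.isCoveringMapOn_of_isLocalHomeomorphOn (fun z _ => h4.fin z) ?_
    refine (Homeomorph.mulLeft₀ u hu).isLocalHomeomorph.isLocalHomeomorphOn.comp (t := univ)
      ((IsLocalHomeomorphOn.mk f (Gd f) fun _ k => k).comp
        isOpen_compl_singleton.isOpenEmbedding_subtypeVal.isLocalHomeomorph.isLocalHomeomorphOn
        fun y hy => by_contra fun k => hy (h3 _ ?_)) (mapsTo_univ _ _)
    exact Finset.mem_union_left _ ((Finite.mem_toFinset _).2 ⟨y, k, rfl⟩)

theorem brc : BRC := fun h C _ _ _ _ _ _ p =>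
  let ⟨_, a, b, c⟩ := h C p
  Pl.br ⟨a, b, c⟩

end Vale.Agent.P275BV
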